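import Vale.Agent.P172.Defs
import Vale.Agent.P198.H372.Defs

/-!
# P172: CAT(-1) spaces, geometric actions, the boundary of a group (notions of the statement)
-/

namespace Vale.Agent.P172.H372

open Set Topology

/-- `X` is a CAT(-1) space: it is a geodesic space, and for every geodesic triangle with vertices
`x, y, z` and every comparison triangle `x', y', z'` in the hyperbolic plane (Mathlib's upper
half-plane with the metric of curvature `-1`), the distance of the point of the side `[x, y]` at
distance `s` from `x` to the point of the side `[x, z]` at distance `t` from `x` is at most the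
distance of the corresponding points of the comparison triangle. -/
structure IsCATNegOne (X : Type*) [MetricSpace X] : Prop where
  geod : ∀ x y : X, ∃ γ : ℝ → X, IsGeodesic γ x y
  comp : ∀ (x y z : X) (α β : ℝ → X), IsGeodesic α x y → IsGeodesic β x z →
    ∀ (x' y' z' : UpperHalfPlane) (α' β' : ℝ → UpperHalfPlane),
      IsGeodesic α' x' y' → IsGeodesic β' x' z' →
      dist x' y' = dist x y → dist x' z' = dist x z → dist y' z' = dist y z →
      ∀ s ∈ Icc 0 (dist x y), ∀ t ∈ Icc 0 (dist x z), dist (α s) (β t) ≤ dist (α' s) (β' t)

/-- the action is properly discontinuous and cocompact -/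
def IsGeometric (G X : Type*) [Group G] [MetricSpace X] [MulAction G X] : Prop :=
  (∀ K : Set X, IsCompact K → {g : G | ((fun x => g • x) '' K ∩ K).Nonempty}.Finite) ∧
    ∃ K : Set X, IsCompact K ∧ ⋃ g : G, (fun x => g • x) '' K = univ

/-- `G` has a finite generating set whose Cayley graph has `δ`-thin geodesic triangles and whose
boundary (geodesic rays from `1` modulo finite Hausdorff distance, quotient topology of pointwise
convergence) is homeomorphic to the 2-sphere -/
def IsHyperbolicWithSphereBoundary (G : Type) [Group G] : Prop :=
  ∃ S : Finset G, Subgroup.closure (S : Set G) = ⊤ ∧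
    (∃ δ : ℝ, Vale.Agent.P198.H372.ThinTriangles (SimpleGraph.mulCayley (S : Set G)) δ) ∧
    Nonempty (Vale.Agent.P198.H372.Boundary (SimpleGraph.mulCayley (S : Set G)) 1 ≃ₜ
      Metric.sphere (0 : EuclideanSpace ℝ (Fin 3)) 1)

end Vale.Agent.P172.H372
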