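import Vale.Agent.P198.H372.CATm1
import Vale.Agent.P198.H372.Final

/-!
# P172: hyperbolic groups with boundary a 2-sphere act geometrically on a CAT(-1) space
-/

namespace Vale.Agent.P172.H372

open Set Topology Metric
open P198H (H3)

theorem sphere_boundary (G : Type) [Group G] (h : IsHyperbolicWithSphereBoundary G) :
    ∃ (X : Type) (_ : MetricSpace X) (_ : MulAction G X), Nonempty X ∧ ProperSpace X ∧
      IsIsometricSMul G X ∧ IsCAT0 X ∧ IsCATNegOne X ∧ IsGeometric G X := by
  obtain ⟨S, hS, ⟨δ, hδ⟩, hb⟩ := h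
  obtain ⟨ρ, ⟨-, h2, h3⟩, -⟩ := Vale.Agent.P198.H372.final G S hS δ hδ hb
  let _ : MulAction G H3 :=
    { smul := fun g x => ρ g x
      one_smul := fun x => Vale.Agent.P198.H372.rho_one x
      mul_smul := fun g k x => Vale.Agent.P198.H372.rho_mul g k x }
  have hiso : IsIsometricSMul G H3 := ⟨fun g => (ρ g).isometry⟩
  exact ⟨H3, inferInstance, inferInstance, ⟨⟨0, 1, one_pos⟩⟩, inferInstance, hiso,
    Vale.Agent.P198.H372.isCAT0_H3, Vale.Agent.P198.H372.isCATNegOne_H3, h2, h3⟩

end Vale.Agent.P172.H372
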